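import Vale.Agent.P232.Cert2a
import Vale.Agent.P232.Cert1a
import Vale.Agent.P232.Cert1b
import Vale.Agent.P232.Cert3a
import Vale.Agent.P232.Cert3b
import Vale.Agent.P232.Cert3c
import Vale.Agent.P232.Cert3d
import Vale.Agent.P232.Cert3e
import Vale.Agent.P232.Cert3f
import Vale.Agent.P232.ChkD

/-! Assembly of the certificates. -/

namespace Vale.Agent.P232

theorem all2 : BoxOK 2 0 524288 0 1048576 0 524288 0 1048576 :=
(BoxOK.split1 443648
(box_of_chk ok2_0)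
(BoxOK.split1 897344
(box_of_chk ok2_1)
(box_of_chk ok2_2)))

theorem all1 : BoxOK 1 0 524288 0 1048576 0 524288 0 1048576 :=
(BoxOK.split1 333770
(box_of_chk ok1_0)
(BoxOK.split0 262144
(BoxOK.split1 869874
(BoxOK.split1 646497
(BoxOK.split2 65536
(BoxOK.split1 490133
(box_of_chk ok1_1)
(box_of_chk ok1_2))
(box_of_chk ok1_3))
(box_of_chk ok1_4))
(box_of_chk ok1_5))
(BoxOK.split2 48234
(BoxOK.split1 869874
(BoxOK.split1 646497
(BoxOK.split1 490133
(box_of_chk ok1_6)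
(BoxOK.split0 393216
(BoxOK.split2 12059
(box_of_chk ok1_7)
(box_of_chk ok1_8))
(box_of_chk ok1_9)))
(box_of_chk ok1_10))
(box_of_chk ok1_11))
(BoxOK.split1 869874
(BoxOK.split1 646497
(BoxOK.split2 222642
(BoxOK.split1 490133
(box_of_chk ok1_12)
(box_of_chk ok1_13))
(box_of_chk ok1_14))
(box_of_chk ok1_15))
(box_of_chk ok1_16)))))

theorem all3 : BoxOK 3 262144 524288 0 1048576 0 524288 0 1048576 :=
(BoxOK.split1 333770
(box_of_chk ok3_0)
(BoxOK.split1 869874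
(BoxOK.split2 131072
(BoxOK.split1 646497
(BoxOK.split2 32768
(BoxOK.split1 490133
(box_of_chk ok3_1)
(BoxOK.split0 393216
(BoxOK.split2 8192
(box_of_chk ok3_2)
(box_of_chk ok3_3))
(box_of_chk ok3_4)))
(BoxOK.split1 490133
(box_of_chk ok3_5)
(BoxOK.split0 393216
(BoxOK.split2 73728
(box_of_chk ok3_6)
(box_of_chk ok3_7))
(box_of_chk ok3_8))))
(BoxOK.split2 32768
(BoxOK.split1 769354
(BoxOK.split0 393216
(BoxOK.split2 8192
(BoxOK.split1 707925
(BoxOK.split0 333790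
(box_of_chk ok3_9)
(BoxOK.split2 2048
(box_of_chk ok3_10)
(box_of_chk ok3_11)))
(BoxOK.split0 333790
(BoxOK.split2 2048
(BoxOK.split1 738639
(BoxOK.split3 524288
(box_of_chk ok3_12)
(box_of_chk ok3_13))
(BoxOK.split3 524288
(BoxOK.split3 262144
(box_of_chk ok3_14)
(BoxOK.split2 512
(BoxOK.split0 297967
(box_of_chk ok3_15)
(BoxOK.split1 753996
(box_of_chk ok3_16)
(box_of_chk ok3_17)))
(box_of_chk ok3_18)))
(box_of_chk ok3_19)))
(box_of_chk ok3_20))
(BoxOK.split2 2048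
(BoxOK.split1 738639
(BoxOK.split3 524288
(BoxOK.split3 262144
(box_of_chk ok3_21)
(BoxOK.split2 512
(BoxOK.split1 723282
(box_of_chk ok3_22)
(box_of_chk ok3_23))
(box_of_chk ok3_24)))
(box_of_chk ok3_25))
(BoxOK.split3 524288
(BoxOK.split3 262144
(box_of_chk ok3_26)
(BoxOK.split2 512
(BoxOK.split1 753996
(box_of_chk ok3_27)
(box_of_chk ok3_28))
(box_of_chk ok3_29)))
(box_of_chk ok3_30)))
(box_of_chk ok3_31))))
(box_of_chk ok3_32))
(box_of_chk ok3_33))
(BoxOK.split0 393216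
(BoxOK.split2 8192
(BoxOK.split1 822406
(BoxOK.split0 333790
(BoxOK.split2 2048
(BoxOK.split1 795880
(BoxOK.split3 524288
(BoxOK.split3 262144
(box_of_chk ok3_34)
(BoxOK.split2 512
(BoxOK.split0 297967
(box_of_chk ok3_35)
(BoxOK.split1 782617
(box_of_chk ok3_36)
(box_of_chk ok3_37)))
(box_of_chk ok3_38)))
(box_of_chk ok3_39))
(BoxOK.split3 524288
(BoxOK.split3 262144
(box_of_chk ok3_40)
(BoxOK.split2 512
(BoxOK.split0 297967
(box_of_chk ok3_41)
(BoxOK.split1 809143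
(box_of_chk ok3_42)
(box_of_chk ok3_43)))
(box_of_chk ok3_44)))
(box_of_chk ok3_45)))
(box_of_chk ok3_46))
(BoxOK.split2 2048
(BoxOK.split1 795880
(BoxOK.split3 524288
(BoxOK.split3 262144
(box_of_chk ok3_47)
(BoxOK.split2 512
(BoxOK.split0 363503
(BoxOK.split0 348646
(BoxOK.split1 782617
(box_of_chk ok3_48)
(box_of_chk ok3_49))
(box_of_chk ok3_50))
(box_of_chk ok3_51))
(box_of_chk ok3_52)))
(box_of_chk ok3_53))
(BoxOK.split3 524288
(BoxOK.split3 262144
(box_of_chk ok3_54)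
(BoxOK.split2 512
(BoxOK.split1 809143
(box_of_chk ok3_55)
(box_of_chk ok3_56))
(box_of_chk ok3_57)))
(box_of_chk ok3_58)))
(box_of_chk ok3_59)))
(BoxOK.split0 333790
(box_of_chk ok3_60)
(box_of_chk ok3_61)))
(box_of_chk ok3_62))
(box_of_chk ok3_63)))
(box_of_chk ok3_64)))
(box_of_chk ok3_65))
(box_of_chk ok3_66)))

theorem numerics : Numerics := numerics_of all2 all1 all3

end Vale.Agent.P232
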